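import Vale.Agent.P281.H349.TM.Box
import Vale.Agent.P281.H303.Gen.Push5
import Vale.Agent.P281.H767.Ns

/-!
# P281, project T-M, block T0 (helper349): the submersive points of a divisor
-/

open Set Filter Metric Vale.Agent.P281 Vale.Agent.P281.H713 Vale.Agent.P281.H64
open scoped Topology ContDiff Manifold

noncomputable section

namespace Vale.Agent.P281.H349.TM

open Vale.Agent.P281.H511.Gen hiding pr
open Vale.Agent.P281.H64.Gen Vale.Agent.P281.H303.Gen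
open Vale.Agent.P281.H150.Gen (pr lst AnIn NoSub SThin)
open Vale.Agent.P281.H64.Thin (IsThinSet)

/-- A hypersurface which is the image of a prime divisor is prime. -/
theorem isPrime_of_hyp' {n m : ℕ} {X X₁ : Type} [TopologicalSpace X] [T2Space X]
    [ChartedSpace (Cm n) X] [IsManifold 𝓘(ℂ, Cm n) ω X] [TopologicalSpace X₁]
    [ChartedSpace (Cm m) X₁] [IsManifold 𝓘(ℂ, Cm m) ω X₁] {u : X₁ → X}
    (hu : ContMDiff 𝓘(ℂ, Cm m) 𝓘(ℂ, Cm n) ω u) {D : Set X₁} (hD : J.IsPrime (Cm m) D)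
    (hc : IsClosed (u '' D))
    (h : ∀ x, ∃ g : X → ℂ, J.HolAt (Cm n) g x ∧ (¬ ∀ᶠ z in 𝓝 x, g z = 0) ∧
      ∀ᶠ z in 𝓝 x, z ∈ u '' D ↔ g z = 0) : J.IsPrime (Cm n) (u '' D) := by
  obtain ⟨w₀, hw₀⟩ := hD.2.2.nonempty
  obtain ⟨g, hg, hg0, hgD⟩ := h (u w₀)
  obtain ⟨x, -, e, he, he0, hde, hev⟩ := exists_smooth hg hg0 hgD (mem_image_of_mem u hw₀.1)
    (N := univ) univ_mem
  obtain ⟨P, hP, hPD, hPe⟩ := irr n X (u '' D) hc h x e he he0 hde hev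
  have hx : x ∈ u '' D := hev.self_of_nhds.2 he0
  obtain ⟨w, hwD, rfl⟩ := hx
  have hPx : ∀ᶠ z in 𝓝 (u w), z ∈ u '' D → z ∈ P := by
    filter_upwards [hev, isLocalEq_mem_iff hPe] with z h1 h2 h3
    exact h2.2 (h1.1 h3)
  have hPw : ∀ᶠ y in 𝓝 w, y ∈ D → y ∈ u ⁻¹' P := by
    filter_upwards [hu.continuous.continuousAt.eventually hPx] with y h1 h2
    exact h1 (mem_image_of_mem u h2)
  obtain ⟨y, hy, hyP⟩ := ((mem_closure_iff_frequently.1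
    (subset_closure_sm hD.2.1 hwD)).and_eventually hPw.eventually_nhds).exists
  have hsub := subset_of_eventually hD (isAnalyticSet_preimage hu (isAnalyticSet_prime hP)) hy hyP
  have heq : u '' D = P := Subset.antisymm (by
    rintro _ ⟨z, hz, rfl⟩
    exact hsub hz) hPD
  rw [heq]
  exact hP

section Sub

variable {n q : ℕ} {X Y : Type} [TopologicalSpace X] [ChartedSpace (Cm n) X]
  [IsManifold 𝓘(ℂ, Cm n) ω X] [TopologicalSpace Y] [ChartedSpace (Cm q) Y]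
  [IsManifold 𝓘(ℂ, Cm q) ω Y]

/-- `D` is smooth at `w`, and `f|D` is submersive at `w`. -/
def SubAt (n q : ℕ) {X Y : Type} [TopologicalSpace X] [ChartedSpace (Cm n) X]
    [TopologicalSpace Y] [ChartedSpace (Cm q) Y] (D : Set X) (f : X → Y) (w : X) : Prop :=
  ∃ e, J.IsLocalEq (Cm n) D e w ∧ J.dif (Cm n) e w ≠ 0 ∧
    ∀ y : Cm q, ∃ ξ : Cm n, J.dif (Cm n) e w ξ = 0 ∧ dM (Cm n) (Cm q) f w ξ = y

theorem exists_eval {e : Cm n →L[ℂ] ℂ} (he : e ≠ 0) (a : ℂ) : ∃ ξ, e ξ = a := by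
  obtain ⟨v, hv⟩ : ∃ v, e v ≠ 0 := by
    by_contra hcon
    push Not at hcon
    exact he (ContinuousLinearMap.ext hcon)
  exact ⟨(a / e v) • v, by rw [map_smul, smul_eq_mul, div_mul_cancel₀ _ hv]⟩

theorem subAt_iff {D : Set X} {f : X → Y} {w : X} {e : X → ℂ} (hw : w ∈ D)
    (he : J.IsLocalEq (Cm n) D e w) : SubAt n q D f w ↔
      Function.Surjective fun ξ : Cm n => (J.dif (Cm n) e w ξ, dM (Cm n) (Cm q) f w ξ) := by
  constructor
  · rintro ⟨e', he', hde', hs⟩ ⟨a, y⟩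
    obtain ⟨u, hu, hu0, hev⟩ := exists_unit (isLocalEq_holAt he')
      ((isLocalEq_mem_iff he').self_of_nhds.1 hw) hde' (isLocalEq_mem_iff he') he
    have h1 := dif_mul_unit (isLocalEq_holAt he') ((isLocalEq_mem_iff he').self_of_nhds.1 hw) hu hev
    obtain ⟨ξ₀, h2⟩ := exists_eval hde' (a / u w)
    obtain ⟨ξ₁, h3, h4⟩ := hs (y - dM (Cm n) (Cm q) f w ξ₀)
    refine ⟨ξ₀ + ξ₁, Prod.ext ?_ ?_⟩
    · show J.dif (Cm n) e w (ξ₀ + ξ₁) = a
      rw [h1, map_add]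
      show u w * J.dif (Cm n) e' w ξ₀ + u w * J.dif (Cm n) e' w ξ₁ = a
      rw [h2, h3, mul_zero, add_zero, mul_div_cancel₀ _ hu0]
    · show dM (Cm n) (Cm q) f w (ξ₀ + ξ₁) = y
      rw [map_add, h4, add_sub_cancel]
  · intro hs
    refine ⟨e, he, fun h0 => ?_, fun y => ?_⟩
    · obtain ⟨ξ, hξ⟩ := hs (1, 0)
      have h1 : J.dif (Cm n) e w ξ = 1 := congrArg Prod.fst hξ
      rw [h0] at h1
      exact zero_ne_one h1
    · obtain ⟨ξ, hξ⟩ := hs (0, y)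
      exact ⟨ξ, congrArg Prod.fst hξ, congrArg Prod.snd hξ⟩

theorem chart_bij {m : ℕ} {M : Type} [TopologicalSpace M] [ChartedSpace (Cm m) M]
    [IsManifold 𝓘(ℂ, Cm m) ω M] {x₀ x : M} (hx : x ∈ (chartAt (Cm m) x₀).source) :
    Function.Bijective (dV (Cm m) (chartAt (Cm m) x₀ : M → Cm m) x) :=
  ⟨(mdifferentiable_chart (I := 𝓘(ℂ, Cm m)) x₀).mfderiv_injective hx,
    (mdifferentiable_chart (I := 𝓘(ℂ, Cm m)) x₀).mfderiv_surjective hx⟩

/-- The points of `D` where `f|D` is not submersive form an analytic set. -/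
theorem analytic_nsub {f : X → Y} (hf : ContMDiff 𝓘(ℂ, Cm n) 𝓘(ℂ, Cm q) ω f) {D : Set X}
    (hloc : ∀ x, ∃ g, J.IsLocalEq (Cm n) D g x) :
    IsAnalyticSet (Cm n) {w | w ∈ D ∧ ¬ SubAt n q D f w} := by
  intro x
  obtain ⟨e, V, hVo, hxV, hV1, hV2, hV3⟩ := hloc x
  set φ := chartAt (Cm n) x with hφ
  set ψ := chartAt (Cm q) (f x) with hψ
  have hx : x ∈ φ.source := mem_chart_source _ x
  have hy : f x ∈ ψ.source := mem_chart_source _ _
  have hleq : ∀ z ∈ V, J.IsLocalEq (Cm n) D e z := fun z hz => ⟨V, hVo, hz, hV1, hV2, hV3⟩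
  set V' : Set X := V ∩ f ⁻¹' ψ.source with hV'
  have hV'o : IsOpen V' := hVo.inter (ψ.open_source.preimage hf.continuous)
  set W : Set (Cm n) := φ.target ∩ φ.symm ⁻¹' V' with hW
  have hWo : IsOpen W := φ.isOpen_inter_preimage_symm hV'o
  set G : Cm n → ℂ := e ∘ φ.symm with hG
  set F : Cm n → Cm q := (fun z => ψ (f z)) ∘ φ.symm with hF
  have hol : ∀ z ∈ V', HolV (Cm n) (fun z => ψ (f z)) z := fun z hz =>
    HolV.comp (E' := Cm q) (h := (ψ : Y → Cm q)) (HolV.chart hz.2) (hf z)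
  have hGF : ∀ z ∈ W, AnalyticAt ℂ G z ∧ AnalyticAt ℂ F z := by
    rintro z ⟨hz, hzV⟩
    have h1 := (HolV.rep (φ.map_target hz) (hV1 _ hzV.1 : HolV (Cm n) e _)).analyticAt
    have h2 := (HolV.rep (φ.map_target hz) (hol _ hzV)).analyticAt
    rw [← hφ, φ.right_inv hz] at h1 h2
    exact ⟨h1, h2⟩
  set FF : Cm n → Cm (q + 1) := fun z => Fin.cons (G z) (F z) with hFF
  have hd : ∀ z ∈ W, HasFDerivAt FF ((fderiv ℂ G z).finCons (fderiv ℂ F z)) z := by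
    intro z hz
    exact HasFDerivAt.finCons (hGF z hz).1.differentiableAt.hasFDerivAt
      (hGF z hz).2.differentiableAt.hasFDerivAt
  have han : ∀ z ∈ W, AnalyticAt ℂ FF z := by
    intro z hz
    refine AnalyticAt.pi fun i => ?_
    refine Fin.cases ?_ (fun j => ?_) i
    · exact (hGF z hz).1
    · exact (((ContinuousLinearMap.proj (R := ℂ) (φ := fun _ : Fin q => ℂ) j).analyticAt _).fun_comp
        (hGF z hz).2)
  have hxW : φ x ∈ W := ⟨φ.map_source hx, by rw [mem_preimage, φ.left_inv hx]; exact ⟨hxV, hy⟩⟩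
  obtain ⟨U, ι, h, hU, hzU, hh, hA⟩ := H150.Gen.anIn_crit hWo han (φ x) hxW
  refine ⟨(φ.source ∩ φ ⁻¹' U) ∩ V', Option ι, fun o z => o.elim (e z) fun i => h i (φ z),
    (φ.isOpen_inter_preimage hU).inter hV'o, ⟨⟨hx, hzU⟩, hxV, hy⟩, ?_, ?_⟩
  · rintro (_ | i) w ⟨⟨hws, hwU⟩, hwV⟩
    · exact hV1 w hwV.1
    · have h1 : ContDiffAt ℂ ω (h i) (φ w) := (hh i _ hwU).contDiffAt
      exact HolV.comp_contDiff (G := h i) h1 (HolV.chart hws)
  · rintro w ⟨⟨hws, hwU⟩, hwV⟩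
    have hwW : φ w ∈ W := ⟨φ.map_source hws, by rw [mem_preimage, φ.left_inv hws]; exact hwV⟩
    have key : Function.Surjective (fderiv ℂ FF (φ w)) ↔
        Function.Surjective fun ξ : Cm n => (J.dif (Cm n) e w ξ, dM (Cm n) (Cm q) f w ξ) := by
      have hb := chart_bij (x₀ := x) hws
      have hb' := chart_bij (x₀ := f x) hwV.2
      have e1 : dV (Cm n) e w = (fderiv ℂ G (φ w)).comp (dV (Cm n) (φ : X → Cm n) w) :=
        dV_eq_chart hws (hV1 w hwV.1)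
      have e2 : dV (Cm n) (fun z => ψ (f z)) w =
          (fderiv ℂ F (φ w)).comp (dV (Cm n) (φ : X → Cm n) w) := dV_eq_chart hws (hol w hwV)
      have e3 : dV (Cm n) (fun z => ψ (f z)) w =
          (dV (Cm q) (ψ : Y → Cm q) (f w)).comp (dM (Cm n) (Cm q) f w) :=
        dV_comp (E' := Cm q) (h := (ψ : Y → Cm q)) (HolV.chart hwV.2) (hf w)
      have e4 : ∀ ξ, fderiv ℂ FF (φ w) (dV (Cm n) (φ : X → Cm n) w ξ) =
          Fin.cons (J.dif (Cm n) e w ξ)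
            (dV (Cm q) (ψ : Y → Cm q) (f w) (dM (Cm n) (Cm q) f w ξ)) := by
        intro ξ
        rw [(hd _ hwW).fderiv]
        have e5 : J.dif (Cm n) e w ξ = fderiv ℂ G (φ w) (dV (Cm n) (φ : X → Cm n) w ξ) :=
          congrArg (fun A : Cm n →L[ℂ] ℂ => A ξ) e1
        have e6 : dV (Cm q) (ψ : Y → Cm q) (f w) (dM (Cm n) (Cm q) f w ξ) =
            fderiv ℂ F (φ w) (dV (Cm n) (φ : X → Cm n) w ξ) :=
          congrArg (fun A : Cm n →L[ℂ] Cm q => A ξ) (e3.symm.trans e2)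
        rw [e5, e6]
        funext i
        refine Fin.cases ?_ (fun j => ?_) i
        · simp
        · simp
      constructor
      · rintro hs ⟨a, y⟩
        obtain ⟨ζ, hζ⟩ := hs (Fin.cons a (dV (Cm q) (ψ : Y → Cm q) (f w) y))
        obtain ⟨ξ, rfl⟩ := hb.2 ζ
        rw [e4] at hζ
        refine ⟨ξ, Prod.ext ?_ ?_⟩
        · have := congrFun hζ 0
          simpa using this
        · apply hb'.1
          funext j
          have := congrFun hζ j.succ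
          simpa using this
      · intro hs v
        obtain ⟨y, hy'⟩ := hb'.2 (fun j => v (Fin.succ j))
        obtain ⟨ξ, hξ⟩ := hs (v 0, y)
        refine ⟨dV (Cm n) (φ : X → Cm n) w ξ, ?_⟩
        rw [e4, show J.dif (Cm n) e w ξ = v 0 from congrArg Prod.fst hξ,
          show dM (Cm n) (Cm q) f w ξ = y from congrArg Prod.snd hξ, hy']
        funext i
        refine Fin.cases ?_ (fun j => ?_) i
        · simp
        · simp
    have h4 := hA _ hwU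
    simp only [mem_ofPred_eq] at h4
    rw [key] at h4
    constructor
    · rintro ⟨h5, h6⟩ (_ | i)
      · exact (hV2 w hwV.1).1 h5
      · rw [subAt_iff h5 (hleq w hwV.1)] at h6
        exact h4.1 h6 i
    · intro h5
      have h6 : w ∈ D := (hV2 w hwV.1).2 (h5 none)
      refine ⟨h6, ?_⟩
      rw [subAt_iff h6 (hleq w hwV.1)]
      exact h4.2 fun i => h5 (some i)

end Sub

section Good

variable {q : ℕ} {X Z : Type} [TopologicalSpace X] [T2Space X] [CompactSpace X]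
  [ChartedSpace (Cm (q + 1 + 1)) X] [IsManifold 𝓘(ℂ, Cm (q + 1 + 1)) ω X] [TopologicalSpace Z]
  [T2Space Z] [ChartedSpace (Cm (q + 1)) Z] [IsManifold 𝓘(ℂ, Cm (q + 1)) ω Z]

/-- If `D` is étale over `Z` at no point, its image is contained in a countable union of thin
sets. -/
theorem image_thin {g : X → Z} (hg : ContMDiff 𝓘(ℂ, Cm (q + 1 + 1)) 𝓘(ℂ, Cm (q + 1)) ω g)
    {D : Set X} (hloc : ∀ x, ∃ e, J.IsLocalEq (Cm (q + 1 + 1)) D e x)
    (hnet : ∀ w ∈ D, ∀ e, J.IsLocalEq (Cm (q + 1 + 1)) D e w → ¬ ∀ ξ,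
      mfderiv 𝓘(ℂ, Cm (q + 1 + 1)) 𝓘(ℂ, Cm (q + 1)) g w ξ = 0 →
        J.dif (Cm (q + 1 + 1)) e w ξ = 0 → ξ = 0) :
    ∃ H : ℕ → Set Z, (∀ k, IsThinSet (Cm (q + 1)) (H k)) ∧ g '' D ⊆ ⋃ k, H k := by
  refine H150.Gen.img (q + 1 + 1) (q + 1) X Z g D hg (isAnalyticSet_of_isLocalEq hloc) ?_
  intro m θ hθ v hv hs
  set w := θ v with hw
  set ψ := chartAt (Cm (q + 1)) (g w) with hψ
  set φ := chartAt (Cm (q + 1 + 1)) w with hφ
  have hn : (ω : WithTop ℕ∞) ≠ 0 := by simp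
  obtain ⟨e, he⟩ := hloc w
  have hol : ∀ z, g z ∈ ψ.source → HolV (Cm (q + 1 + 1)) (fun z => ψ (g z)) z := fun z hz =>
    HolV.comp (E' := Cm (q + 1)) (h := (ψ : Z → Cm (q + 1))) (HolV.chart hz) (hg z)
  obtain ⟨W, hWo, hwW, hWt, hW1, hW2, hW3⟩ := exists_chart (p := q + 1) he
    (hol w (mem_chart_source _ _))
  rw [← hφ] at hwW hWt hW1 hW2 hW3
  have hns : NoSub W (bad (e ∘ φ.symm) ((fun z => ψ (g z)) ∘ φ.symm))
      ((fun z => ψ (g z)) ∘ φ.symm) := H767.ns (q + 1) W _ _ hWo hW1 hW2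
  have hθc : ContinuousOn θ (ball (0 : Cm m) 1) := fun z hz =>
    (hθ z hz).1.continuousAt.continuousWithinAt
  set O : Set X := (φ.source ∩ φ ⁻¹' W) ∩ g ⁻¹' ψ.source with hO
  have hOo : IsOpen O := (φ.isOpen_inter_preimage hWo).inter
    (ψ.open_source.preimage hg.continuous)
  have hW'o : IsOpen (ball (0 : Cm m) 1 ∩ θ ⁻¹' O) := hθc.isOpen_inter_preimage isOpen_ball hOo
  have hvO : v ∈ ball (0 : Cm m) 1 ∩ θ ⁻¹' O :=
    ⟨hv, ⟨mem_chart_source _ _, hwW⟩, mem_chart_source _ _⟩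
  refine hns (Cm m) (ball (0 : Cm m) 1 ∩ θ ⁻¹' O) (fun z => φ (θ z)) hW'o ?_ v hvO ?_
  · rintro z ⟨hz, ⟨hzs, hzW⟩, hzψ⟩
    have hc : ContMDiffAt 𝓘(ℂ, Cm m) 𝓘(ℂ, Cm (q + 1 + 1)) ω (fun z => φ (θ z)) z :=
      ContMDiffAt.comp z (H150.Gen.holAt_chart hzs) (hθ z hz).1
    refine ⟨(contMDiffAt_iff_contDiffAt.1 hc).analyticAt, ?_, hzW⟩
    rw [← hW3 _ hzW, φ.left_inv hzs]
    refine ⟨(hθ z hz).2, ?_⟩
    rintro ⟨e', he', he0, hD, hinj⟩
    have h1 : dV (Cm (q + 1 + 1)) (fun x => ψ (g x)) (θ z) =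
        (dV (Cm (q + 1)) (ψ : Z → Cm (q + 1)) (g (θ z))).comp
          (dM (Cm (q + 1 + 1)) (Cm (q + 1)) g (θ z)) :=
      dV_comp (E' := Cm (q + 1)) (h := (ψ : Z → Cm (q + 1))) (HolV.chart hzψ) (hg _)
    obtain ⟨e₂, he₂⟩ := hloc (θ z)
    have h2 : EtAt D (fun x => ψ (g x)) (θ z) := ⟨e', he', he0, hD, hinj⟩
    rw [etAt_iff (hθ z hz).2 he₂] at h2
    refine hnet (θ z) (hθ z hz).2 e₂ he₂ fun ξ h3 h4 => h2 ξ ?_ h4
    have h5 : dM (Cm (q + 1 + 1)) (Cm (q + 1)) g (θ z) ξ = 0 := h3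
    have h6 : dV (Cm (q + 1 + 1)) (fun x => ψ (g x)) (θ z) ξ =
        dV (Cm (q + 1)) (ψ : Z → Cm (q + 1)) (g (θ z))
          (dM (Cm (q + 1 + 1)) (Cm (q + 1)) g (θ z) ξ) :=
      congrArg (fun A : Cm (q + 1 + 1) →L[ℂ] Cm (q + 1) => A ξ) h1
    rw [h6, h5, map_zero]
  · have h1 : ContMDiffAt 𝓘(ℂ, Cm m) 𝓘(ℂ, Cm (q + 1)) ω (fun z => g (θ z)) v :=
      ContMDiffAt.comp v (hg _) (hθ v hv).1
    have h2 : mfderiv 𝓘(ℂ, Cm m) 𝓘(ℂ, Cm (q + 1)) (fun z => ψ (g (θ z))) v =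
        (mfderiv 𝓘(ℂ, Cm (q + 1)) 𝓘(ℂ, Cm (q + 1)) ψ (g w)).comp
          (mfderiv 𝓘(ℂ, Cm m) 𝓘(ℂ, Cm (q + 1)) (fun z => g (θ z)) v) :=
      mfderiv_comp v ((H150.Gen.holAt_chart (mem_chart_source _ _)).mdifferentiableAt hn)
        (h1.mdifferentiableAt hn)
    rw [mfderiv_eq_fderiv] at h2
    have h3 : (fun z => ((fun x => ψ (g x)) ∘ φ.symm) (φ (θ z))) =ᶠ[𝓝 v]
        fun z => ψ (g (θ z)) := by
      filter_upwards [hW'o.mem_nhds hvO] with z hz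
      show ψ (g (φ.symm (φ (θ z)))) = ψ (g (θ z))
      rw [φ.left_inv hz.2.1.1]
    rw [h3.fderiv_eq, h2]
    intro y
    obtain ⟨ζ, hζ⟩ := (chart_bij (x₀ := g w) (x := g w) (mem_chart_source _ _)).2 y
    obtain ⟨ξ, hξ⟩ := hs ζ
    refine ⟨ξ, ?_⟩
    show dV (Cm (q + 1)) (ψ : Z → Cm (q + 1)) (g w)
      (mfderiv 𝓘(ℂ, Cm m) 𝓘(ℂ, Cm (q + 1)) (fun z => g (θ z)) v ξ) = y
    rw [hξ]
    exact hζ

variable {Y : Type} [TopologicalSpace Y] [T2Space Y] [ChartedSpace (Cm q) Y]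
  [IsManifold 𝓘(ℂ, Cm q) ω Y]

/-- **The hypotheses of `exists_box`** from E9 (`hfull`) and E10 (`hflat`). -/
theorem good {g : X → Z} (hg : ContMDiff 𝓘(ℂ, Cm (q + 1 + 1)) 𝓘(ℂ, Cm (q + 1)) ω g)
    {h : Z → Y} (hh : ContMDiff 𝓘(ℂ, Cm (q + 1)) 𝓘(ℂ, Cm q) ω h) {E : Set X}
    (hE : J.IsPrime (Cm (q + 1 + 1)) E)
    (hfull : ∀ w ∈ E, ∀ e, J.IsLocalEq (Cm (q + 1 + 1)) E e w →
      (∀ ξ, mfderiv 𝓘(ℂ, Cm (q + 1 + 1)) 𝓘(ℂ, Cm (q + 1)) g w ξ = 0 →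
        J.dif (Cm (q + 1 + 1)) e w ξ = 0 → ξ = 0) → g '' E = univ)
    (hflat : (∀ w ∈ E, ∀ e, J.IsLocalEq (Cm (q + 1 + 1)) E e w →
      J.dif (Cm (q + 1 + 1)) e w ≠ 0 → ¬ ∀ y : Cm q, ∃ ξ, J.dif (Cm (q + 1 + 1)) e w ξ = 0 ∧
        mfderiv 𝓘(ℂ, Cm (q + 1 + 1)) 𝓘(ℂ, Cm q) (fun x => h (g x)) w ξ = y) →
      IsSmallSet (Cm q) ((fun x => h (g x)) '' E))
    (hne : g '' E ≠ univ) (hns : ¬ IsSmallSet (Cm q) ((fun x => h (g x)) '' E)) :
    (∃ H : ℕ → Set Z, (∀ k, IsThinSet (Cm (q + 1)) (H k)) ∧ g '' E ⊆ ⋃ k, H k) ∧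
      E ⊆ closure {w | w ∈ E ∧ ∃ e, J.IsLocalEq (Cm (q + 1 + 1)) E e w ∧
        J.dif (Cm (q + 1 + 1)) e w ≠ 0 ∧
        Module.finrank ℂ (tanIm (n := q + 1 + 1) (q := q) g e w) = q} := by
  have hf : ContMDiff 𝓘(ℂ, Cm (q + 1 + 1)) 𝓘(ℂ, Cm q) ω (fun x => h (g x)) := hh.comp hg
  have hnet : ∀ w ∈ E, ∀ e, J.IsLocalEq (Cm (q + 1 + 1)) E e w → ¬ ∀ ξ,
      mfderiv 𝓘(ℂ, Cm (q + 1 + 1)) 𝓘(ℂ, Cm (q + 1)) g w ξ = 0 →
        J.dif (Cm (q + 1 + 1)) e w ξ = 0 → ξ = 0 := fun w hw e he hcon =>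
    hne (hfull w hw e he hcon)
  refine ⟨image_thin hg hE.2.1 hnet, ?_⟩
  have hA := analytic_nsub (n := q + 1 + 1) (q := q) hf hE.2.1
  have hEA : ¬ E ⊆ {w | w ∈ E ∧ ¬ SubAt (q + 1 + 1) q E (fun x => h (g x)) w} := by
    intro hcon
    apply hns
    refine hflat fun w hw e he hde hs => (hcon hw).2 ⟨e, he, hde, hs⟩
  refine (subset_closure_diff hE hA hEA).trans (closure_mono ?_)
  rintro w ⟨hw, hwA⟩
  have hwE : w ∈ E := hw.1
  have hS : SubAt (q + 1 + 1) q E (fun x => h (g x)) w := by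
    by_contra hcon
    exact hwA ⟨hwE, hcon⟩
  obtain ⟨e, he, hde, hs⟩ := hS
  refine ⟨hwE, e, he, hde, le_antisymm ?_ ?_⟩
  · -- rank at most `q`
    by_contra hcon
    push Not at hcon
    refine hnet w hwE e he ?_
    set A : Cm (q + 1 + 1) →ₗ[ℂ] Cm (q + 1) :=
      (dM (Cm (q + 1 + 1)) (Cm (q + 1)) g w : Cm (q + 1 + 1) →ₗ[ℂ] Cm (q + 1)) with hA'
    set K := LinearMap.ker (J.dif (Cm (q + 1 + 1)) e w : Cm (q + 1 + 1) →ₗ[ℂ] ℂ) with hK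
    have hfK : Module.finrank ℂ K ≤ q + 1 := by
      have h1 := LinearMap.finrank_range_add_finrank_ker
        (J.dif (Cm (q + 1 + 1)) e w : Cm (q + 1 + 1) →ₗ[ℂ] ℂ)
      have h2 : 0 < Module.finrank ℂ (LinearMap.range
          (J.dif (Cm (q + 1 + 1)) e w : Cm (q + 1 + 1) →ₗ[ℂ] ℂ)) := by
        rw [Module.finrank_pos_iff_exists_ne_zero]
        obtain ⟨v, hv⟩ := exists_eval hde 1
        refine ⟨⟨_, LinearMap.mem_range_self _ v⟩, fun h3 => ?_⟩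
        have h4 : J.dif (Cm (q + 1 + 1)) e w v = 0 := congrArg Subtype.val h3
        rw [hv] at h4
        exact one_ne_zero h4
      have h3 : Module.finrank ℂ (Cm (q + 1 + 1)) = q + 1 + 1 := by simp
      rw [h3] at h1
      have h4 : Module.finrank ℂ K = Module.finrank ℂ (LinearMap.ker
        (J.dif (Cm (q + 1 + 1)) e w : Cm (q + 1 + 1) →ₗ[ℂ] ℂ)) := rfl
      omega
    have h5 : Module.finrank ℂ (K.map A) = Module.finrank ℂ (LinearMap.range (A.domRestrict K)) := by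
      rw [LinearMap.range_domRestrict]
    have h6 := LinearMap.finrank_range_add_finrank_ker (A.domRestrict K)
    have h7 : q < Module.finrank ℂ (K.map A) := hcon
    have h8 : Module.finrank ℂ (LinearMap.ker (A.domRestrict K)) = 0 := by omega
    have h9 : LinearMap.ker (A.domRestrict K) = ⊥ := Submodule.finrank_eq_zero.1 h8
    intro ξ h10 h11
    have h12 : (⟨ξ, h11⟩ : K) ∈ LinearMap.ker (A.domRestrict K) := h10
    rw [h9, Submodule.mem_bot] at h12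
    exact congrArg Subtype.val h12
  · -- rank at least `q`
    set B : Cm (q + 1) →ₗ[ℂ] Cm q :=
      (dM (Cm (q + 1)) (Cm q) h (g w) : Cm (q + 1) →ₗ[ℂ] Cm q) with hB
    have h1 : dM (Cm (q + 1 + 1)) (Cm q) (fun x => h (g x)) w =
        (dM (Cm (q + 1)) (Cm q) h (g w)).comp (dM (Cm (q + 1 + 1)) (Cm (q + 1)) g w) :=
      mfderiv_comp w ((hh (g w)).mdifferentiableAt (by simp)) ((hg w).mdifferentiableAt (by simp))
    have h2 : (tanIm (n := q + 1 + 1) (q := q) g e w).map B = ⊤ := by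
      rw [eq_top_iff]
      rintro y -
      obtain ⟨ξ, h3, h4⟩ := hs y
      refine ⟨dM (Cm (q + 1 + 1)) (Cm (q + 1)) g w ξ, ⟨ξ, h3, rfl⟩, ?_⟩
      rw [← h4, h1]
      rfl
    have h3 := Submodule.finrank_map_le B (tanIm (n := q + 1 + 1) (q := q) g e w)
    rw [h2, finrank_top] at h3
    simpa using h3

end Good

end Vale.Agent.P281.H349.TM
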