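import Vale.Agent.P281.H180.TM.ESpec
import Vale.Agent.P281.H349.TM.Good

/-!
# P281, project T-M, block T0, E8 (helper349): the image of a prime divisor is a hypersurface
-/

open Set Filter Metric Vale.Agent.P281 Vale.Agent.P281.H713 Vale.Agent.P281.H64
open scoped Topology ContDiff Manifold

noncomputable section

namespace Vale.Agent.P281.H349.TM

open Vale.Agent.P281.H511.Gen hiding pr
open Vale.Agent.P281.H64.Gen Vale.Agent.P281.H303.Gen
open Vale.Agent.P281.H150.Gen (pr lst AnIn NoSub SThin)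
open Vale.Agent.P281.H64.Thin (IsThinSet)
open Vale.Agent.P281.H180.TM (rnk Gd Loc VG CountStmt HypStmt)

/-- An injective linear map on the kernel of a form. -/
theorem rnk_of_inj {m : ℕ} {W : Type} [NormedAddCommGroup W] [NormedSpace ℂ W]
    (A : Cm (m + 1) →L[ℂ] W) (e : Cm (m + 1) →L[ℂ] ℂ)
    (h : ∀ ξ, A ξ = 0 → e ξ = 0 → ξ = 0) : m ≤ rnk A e := by
  unfold rnk
  set K := LinearMap.ker (e : Cm (m + 1) →ₗ[ℂ] ℂ) with hK
  have h1 := LinearMap.finrank_range_add_finrank_ker (e : Cm (m + 1) →ₗ[ℂ] ℂ)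
  have h2 : Module.finrank ℂ (LinearMap.range (e : Cm (m + 1) →ₗ[ℂ] ℂ)) ≤ 1 := by
    have := Submodule.finrank_le (LinearMap.range (e : Cm (m + 1) →ₗ[ℂ] ℂ))
    simpa using this
  have h3 : Module.finrank ℂ (Cm (m + 1)) = m + 1 := by simp
  have h4 : LinearMap.ker ((A : Cm (m + 1) →ₗ[ℂ] W).domRestrict K) = ⊥ := by
    rw [LinearMap.ker_eq_bot']
    rintro ⟨ξ, hξ⟩ h5
    exact Subtype.ext (h ξ h5 hξ)
  have h5 : Module.finrank ℂ (K.map (A : Cm (m + 1) →ₗ[ℂ] W)) =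
      Module.finrank ℂ (LinearMap.range ((A : Cm (m + 1) →ₗ[ℂ] W).domRestrict K)) := by
    rw [LinearMap.range_domRestrict]
  have h6 := LinearMap.finrank_range_add_finrank_ker ((A : Cm (m + 1) →ₗ[ℂ] W).domRestrict K)
  have h7 : Module.finrank ℂ (LinearMap.ker ((A : Cm (m + 1) →ₗ[ℂ] W).domRestrict K)) = 0 := by
    rw [h4]
    simp
  have h8 : Module.finrank ℂ K = Module.finrank ℂ (LinearMap.ker (e : Cm (m + 1) →ₗ[ℂ] ℂ)) := rfl
  omega

/-- A map onto from a space of dimension `≤ q` to `ℂ^q` is injective. -/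
theorem eq_zero_of_surj {q m : ℕ} (S : Submodule ℂ (Cm m)) (hS : Module.finrank ℂ S ≤ q)
    (B : Cm m →ₗ[ℂ] Cm q) (hB : ∀ y, ∃ v ∈ S, B v = y) : ∀ v ∈ S, B v = 0 → v = 0 := by
  have h1 : LinearMap.range (B.domRestrict S) = ⊤ := by
    rw [eq_top_iff]
    rintro y -
    obtain ⟨v, hv, hy⟩ := hB y
    exact ⟨⟨v, hv⟩, hy⟩
  have h2 := LinearMap.finrank_range_add_finrank_ker (B.domRestrict S)
  rw [h1, finrank_top] at h2
  have h3 : Module.finrank ℂ (Cm q) = q := by simp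
  have h4 : LinearMap.ker (B.domRestrict S) = ⊥ := Submodule.finrank_eq_zero.1 (by omega)
  intro v hv h5
  have h6 : (⟨v, hv⟩ : S) ∈ LinearMap.ker (B.domRestrict S) := h5
  rw [h4, Submodule.mem_bot] at h6
  exact congrArg Subtype.val h6

theorem smEq_of {n : ℕ} {X : Type} [TopologicalSpace X] [ChartedSpace (Cm n) X]
    {D : Set X} {e : X → ℂ} {x : X} (hx : x ∈ D)
    (he : J.IsLocalEq (Cm n) D e x) (hde : J.dif (Cm n) e x ≠ 0) : SmEq (n := n) D e x :=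
  ⟨isLocalEq_holAt he, (isLocalEq_mem_iff he).self_of_nhds.1 hx, hde, isLocalEq_mem_iff he⟩

theorem hyp (h4 : CountStmt) (h6 : Vale.Agent.P281.H180.TM.FinStmt)
    (h7 : Vale.Agent.P281.H180.TM.ExtStmt) : HypStmt := by
  intro q X Z _ _ _ _ _ _ _ _ _ g D hg hDc hloc hne hrk hdense z₀
  have hsc : SecondCountableTopology X :=
    ChartedSpace.secondCountable_of_sigmaCompact (Cm (q + 1 + 1)) X
  -- the image is contained in a countable union of thin sets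
  have hnet : ∀ w ∈ D, ∀ e, J.IsLocalEq (Cm (q + 1 + 1)) D e w → ¬ ∀ ξ,
      mfderiv 𝓘(ℂ, Cm (q + 1 + 1)) 𝓘(ℂ, Cm (q + 1)) g w ξ = 0 →
        J.dif (Cm (q + 1 + 1)) e w ξ = 0 → ξ = 0 := by
    intro w hw e he hcon
    have hde : J.dif (Cm (q + 1 + 1)) e w ≠ 0 := by
      intro h0
      have h1 : Function.Injective (dM (Cm (q + 1 + 1)) (Cm (q + 1)) g w) := by
        rw [injective_iff_map_eq_zero]
        intro ξ hξ
        refine hcon ξ hξ ?_
        rw [h0]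
        rfl
      have h2 := LinearMap.finrank_le_finrank_of_injective
        (f := (dM (Cm (q + 1 + 1)) (Cm (q + 1)) g w : Cm (q + 1 + 1) →ₗ[ℂ] Cm (q + 1))) h1
      simp at h2
    have h1 := rnk_of_inj (m := q + 1) (dM (Cm (q + 1 + 1)) (Cm (q + 1)) g w)
      (dV (Cm (q + 1 + 1)) e w) hcon
    have h2 := hrk w e (smEq_of hw he hde)
    omega
  obtain ⟨H, hH, hHu⟩ := image_thin hg hloc hnet
  -- the box
  have hG : D ⊆ closure {w | w ∈ D ∧ ∃ e, J.IsLocalEq (Cm (q + 1 + 1)) D e w ∧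
      J.dif (Cm (q + 1 + 1)) e w ≠ 0 ∧
      Module.finrank ℂ (tanIm (n := q + 1 + 1) (q := q) g e w) = q} := by
    refine hdense.trans (closure_mono ?_)
    rintro w ⟨e, he, hr⟩
    exact ⟨he.2.2.2.self_of_nhds.2 he.2.1, e, isLocalEq_of he.1 he.2.2.1 he.2.2.2, he.2.2.1, hr⟩
  obtain ⟨L, r, hr, hb1, hb2, hb3⟩ := exists_box hg hDc hH hHu hG z₀
  set φ := chartAt (Cm (q + 1)) z₀ with hφ
  have hz₀ : z₀ ∈ φ.source := mem_chart_source _ z₀
  set v₀ : Cm (q + 1) := L (φ z₀) with hv₀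
  set f : X → Cm q := fun w => pr q (L (φ (g w))) with hf
  set t : X → ℂ := fun w => lst q (L (φ (g w))) with ht
  set B : Set (Cm q) := ball (pr q v₀) r with hB
  have hol : ∀ w, g w ∈ φ.source → HolV (Cm (q + 1 + 1)) (fun w => φ (g w)) w := fun w hw =>
    HolV.comp (E' := Cm (q + 1)) (h := (φ : Z → Cm (q + 1))) (HolV.chart hw) (hg w)
  have holf : ∀ w, g w ∈ φ.source → HolV (Cm (q + 1 + 1)) f w := fun w hw =>
    HolV.comp_contDiff (G := fun v => pr q (L v))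
      (((pr q).comp (L : Cm (q + 1) →L[ℂ] Cm (q + 1))).contDiff.contDiffAt) (hol w hw)
  have holt : ∀ w, g w ∈ φ.source → HolV (Cm (q + 1 + 1)) t w := fun w hw =>
    HolV.comp_contDiff (G := fun v => lst q (L v))
      (((lst q).comp (L : Cm (q + 1) →L[ℂ] Cm (q + 1))).contDiff.contDiffAt) (hol w hw)
  set U : Set X := {w | g w ∈ φ.source ∧ f w ∈ B ∧ ‖t w - lst q v₀‖ < 1} with hU
  have hUo : IsOpen U := by
    rw [isOpen_iff_mem_nhds]
    rintro w ⟨h1, h2, h3⟩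
    filter_upwards [hg.continuous.continuousAt.eventually (φ.open_source.mem_nhds h1),
      (holf w h1).continuousAt.eventually (isOpen_ball.mem_nhds h2),
      ((holt w h1).continuousAt.sub continuousAt_const).norm.eventually_lt_const h3] with x h4 h5 h6
    exact ⟨h4, h5, h6⟩
  -- the compact box
  set Bx : Set (Cm (q + 1)) := (fun x : Cm q × ℂ => L.symm (pnt x.1 x.2)) ''
    (closedBall (pr q v₀) r ×ˢ closedBall (lst q v₀) 1) with hBx
  have hBxc : IsCompact Bx := ((isCompact_closedBall _ _).prod (isCompact_closedBall _ _)).image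
    (L.symm.continuous.comp continuous_pnt)
  have hBxi : ∀ v, v ∈ Bx ↔ pr q (L v) ∈ closedBall (pr q v₀) r ∧ ‖lst q (L v) - lst q v₀‖ ≤ 1 := by
    intro v
    constructor
    · rintro ⟨⟨b, s⟩, ⟨hb, hs⟩, rfl⟩
      simp only [ContinuousLinearEquiv.apply_symm_apply, pr_pnt, lst_pnt]
      exact ⟨hb, by simpa [dist_eq_norm] using hs⟩
    · rintro ⟨h1, h2⟩
      refine ⟨(pr q (L v), lst q (L v)), ⟨h1, by simpa [dist_eq_norm] using h2⟩, ?_⟩
      simp only [pnt_pr_lst, ContinuousLinearEquiv.symm_apply_apply]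
  have hBxt : Bx ⊆ φ.target := by
    intro v hv
    have h1 := hb1 (L v) ((hBxi v).1 hv).1 ((hBxi v).1 hv).2
    rwa [ContinuousLinearEquiv.symm_apply_apply] at h1
  set K : Set X := D ∩ g ⁻¹' (φ.symm '' Bx) with hK
  have hKc : IsCompact K := (hDc.inter (((hBxc.image_of_continuousOn
    (φ.continuousOn_symm.mono hBxt)).isClosed).preimage hg.continuous)).isCompact
  have hKi : ∀ w, w ∈ K ↔ w ∈ D ∧ g w ∈ φ.source ∧ f w ∈ closedBall (pr q v₀) r ∧
      ‖t w - lst q v₀‖ ≤ 1 := by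
    intro w
    constructor
    · rintro ⟨hwD, v, hv, hvw⟩
      have h1 : g w ∈ φ.source := by
        rw [← hvw]
        exact φ.map_target (hBxt hv)
      have h2 : φ (g w) = v := by
        rw [← hvw, φ.right_inv (hBxt hv)]
      have h3 := (hBxi v).1 hv
      rw [← h2] at h3
      exact ⟨hwD, h1, h3⟩
    · rintro ⟨hwD, h1, h2⟩
      exact ⟨hwD, φ (g w), (hBxi _).2 h2, φ.left_inv h1⟩
  have hKU : ∀ x, x ∈ K ∧ f x ∈ B ↔ x ∈ D ∧ x ∈ U := by
    intro x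
    constructor
    · rintro ⟨hx, hxB⟩
      obtain ⟨h1, h2, h3, h4'⟩ := (hKi x).1 hx
      refine ⟨h1, h2, hxB, lt_of_le_of_ne h4' fun h5 => ?_⟩
      have h6' := hb2 (L (φ (g x))) h3 h5
      rw [ContinuousLinearEquiv.symm_apply_apply, φ.left_inv h2] at h6'
      exact h6' (mem_image_of_mem g h1)
    · rintro ⟨h1, h2, h3, h4'⟩
      exact ⟨(hKi x).2 ⟨h1, h2, ball_subset_closedBall h3, h4'.le⟩, h3⟩
  have hcont : ∀ x ∈ K, ContinuousAt f x ∧ ContinuousAt t x := by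
    intro x hx
    have h1 := ((hKi x).1 hx).2.1
    exact ⟨(holf x h1).continuousAt, (holt x h1).continuousAt⟩
  -- the derivatives
  have hdA : ∀ w, g w ∈ φ.source → ∀ ξ : Cm (q + 1 + 1),
      dV (Cm (q + 1 + 1)) f w ξ = pr q (L (dV (Cm (q + 1)) (φ : Z → Cm (q + 1)) (g w)
        (dM (Cm (q + 1 + 1)) (Cm (q + 1)) g w ξ))) ∧
      dV (Cm (q + 1 + 1)) t w ξ = lst q (L (dV (Cm (q + 1)) (φ : Z → Cm (q + 1)) (g w)
        (dM (Cm (q + 1 + 1)) (Cm (q + 1)) g w ξ))) := by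
    intro w hw ξ
    have h1 : dV (Cm (q + 1 + 1)) (fun x => φ (g x)) w =
        (dV (Cm (q + 1)) (φ : Z → Cm (q + 1)) (g w)).comp
          (dM (Cm (q + 1 + 1)) (Cm (q + 1)) g w) :=
      dV_comp (E' := Cm (q + 1)) (h := (φ : Z → Cm (q + 1))) (HolV.chart hw) (hg _)
    have h2 : HasMFDerivAt 𝓘(ℂ, Cm (q + 1 + 1)) 𝓘(ℂ, Cm (q + 1)) (fun x => φ (g x)) w
        (dV (Cm (q + 1 + 1)) (fun x => φ (g x)) w) := (hol _ hw).mdiff.hasMFDerivAt
    have h5 : HasMFDerivAt 𝓘(ℂ, Cm (q + 1)) 𝓘(ℂ, Cm q)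
        ((pr q).comp (L : Cm (q + 1) →L[ℂ] Cm (q + 1))) (φ (g w))
        ((pr q).comp (L : Cm (q + 1) →L[ℂ] Cm (q + 1))) :=
      ((pr q).comp (L : Cm (q + 1) →L[ℂ] Cm (q + 1))).hasMFDerivAt
    have h6' := HasMFDerivAt.comp w h5 h2
    have h3 : dV (Cm (q + 1 + 1)) f w =
        ((pr q).comp (L : Cm (q + 1) →L[ℂ] Cm (q + 1))).comp
          (dV (Cm (q + 1 + 1)) (fun x => φ (g x)) w) := h6'.mfderiv
    have h7' : HasMFDerivAt 𝓘(ℂ, Cm (q + 1)) 𝓘(ℂ, ℂ)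
        ((lst q).comp (L : Cm (q + 1) →L[ℂ] Cm (q + 1))) (φ (g w))
        ((lst q).comp (L : Cm (q + 1) →L[ℂ] Cm (q + 1))) :=
      ((lst q).comp (L : Cm (q + 1) →L[ℂ] Cm (q + 1))).hasMFDerivAt
    have h8 := HasMFDerivAt.comp w h7' h2
    have h4' : dV (Cm (q + 1 + 1)) t w =
        ((lst q).comp (L : Cm (q + 1) →L[ℂ] Cm (q + 1))).comp
          (dV (Cm (q + 1 + 1)) (fun x => φ (g x)) w) := h8.mfderiv
    rw [h3, h4', h1]
    exact ⟨rfl, rfl⟩
  -- the local structure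
  have hLoc : Loc D U f t := by
    refine ⟨hDc, hloc, hUo, fun x hx => ⟨holf x hx.1, holt x hx.1⟩, ?_, ?_⟩
    · intro x hx e he hs ξ h1 h2
      set S : Submodule ℂ (Cm (q + 1)) := ((LinearMap.ker
        (dV (Cm (q + 1 + 1)) e x : Cm (q + 1 + 1) →ₗ[ℂ] ℂ)).map
        (dM (Cm (q + 1 + 1)) (Cm (q + 1)) g x : Cm (q + 1 + 1) →ₗ[ℂ] Cm (q + 1))).map
        ((dV (Cm (q + 1)) (φ : Z → Cm (q + 1)) (g x) : Cm (q + 1) →L[ℂ] Cm (q + 1)) :
          Cm (q + 1) →ₗ[ℂ] Cm (q + 1)) with hS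
      have hSr : Module.finrank ℂ S ≤ q := (Submodule.finrank_map_le _ _).trans (hrk x e he)
      have key := eq_zero_of_surj (q := q) S hSr
        (((pr q).comp (L : Cm (q + 1) →L[ℂ] Cm (q + 1)) : Cm (q + 1) →L[ℂ] Cm q) :
          Cm (q + 1) →ₗ[ℂ] Cm q) (by
          intro y
          obtain ⟨ζ, hζ⟩ := hs (y, 0)
          have h3 : dV (Cm (q + 1 + 1)) f x ζ = y := congrArg Prod.fst hζ
          have h4' : dV (Cm (q + 1 + 1)) e x ζ = 0 := congrArg Prod.snd hζ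
          refine ⟨dV (Cm (q + 1)) (φ : Z → Cm (q + 1)) (g x)
            (dM (Cm (q + 1 + 1)) (Cm (q + 1)) g x ζ), ⟨_, ⟨ζ, h4', rfl⟩, rfl⟩, ?_⟩
          rw [(hdA x hx.1 ζ).1] at h3
          exact h3)
      have h3 := key (dV (Cm (q + 1)) (φ : Z → Cm (q + 1)) (g x)
        (dM (Cm (q + 1 + 1)) (Cm (q + 1)) g x ξ)) ⟨_, ⟨ξ, h2, rfl⟩, rfl⟩ (by
          rw [(hdA x hx.1 ξ).1] at h1
          exact h1)
      rw [(hdA x hx.1 ξ).2, h3, map_zero, map_zero]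
    · intro x hx hxD
      refine closure_mono ?_ (hb3 x hxD hx.1)
      rintro w ⟨hwD, hws, e, he, hde, hs⟩
      refine ⟨e, smEq_of hwD he hde, ?_⟩
      rintro ⟨y, a⟩
      obtain ⟨ξ₀, h2⟩ := exists_eval hde a
      obtain ⟨ξ₁, h3, h4'⟩ := hs (y - dV (Cm (q + 1 + 1)) f w ξ₀)
      have h5 : dV (Cm (q + 1 + 1)) f w ξ₁ = y - dV (Cm (q + 1 + 1)) f w ξ₀ := h4'
      refine ⟨ξ₀ + ξ₁, Prod.ext ?_ ?_⟩
      · show dV (Cm (q + 1 + 1)) f w (ξ₀ + ξ₁) = y
        rw [map_add, h5, add_sub_cancel]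
      · show J.dif (Cm (q + 1 + 1)) e w (ξ₀ + ξ₁) = a
        rw [map_add, h2, h3, add_zero]
  obtain ⟨S, hS⟩ := h4 q X D U f t hLoc
  obtain ⟨hfin, hint⟩ := h6 q X D U K B f t S hLoc hS hKc isOpen_ball hcont hKU
  -- the image in the box
  set C : Set (Cm (q + 1)) := (fun x => L (φ (g x))) '' K with hC
  have hCc : IsCompact C := by
    refine hKc.image_of_continuousOn fun x hx => ContinuousAt.continuousWithinAt ?_
    exact L.continuous.continuousAt.comp (hol x ((hKi x).1 hx).2.1).continuousAt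
  have hCi : ∀ b s, pnt b s ∈ C ↔ ∃ x ∈ K, f x = b ∧ t x = s := by
    intro b s
    constructor
    · rintro ⟨x, hx, h1⟩
      have h1 : L (φ (g x)) = pnt b s := h1
      refine ⟨x, hx, ?_, ?_⟩
      · show pr q (L (φ (g x))) = b
        rw [h1, pr_pnt]
      · show lst q (L (φ (g x))) = s
        rw [h1, lst_pnt]
    · rintro ⟨x, hx, rfl, rfl⟩
      exact ⟨x, hx, (pnt_pr_lst _).symm⟩
  obtain ⟨Q, hQ, hQ0, hQz⟩ := h7 q C B S hCc isOpen_ball hS.thin (by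
      intro b₀ hb₀ hbS
      obtain ⟨T, hT, hTev⟩ := hfin b₀ hb₀ hbS
      refine ⟨T, hT, ?_⟩
      filter_upwards [hTev] with b h1 s
      rw [hCi]
      exact h1 s) (by
      rintro _ ⟨x, hx, rfl⟩ hxB N hN
      have h1 := (hKU x).1 ⟨hx, hxB⟩
      have h2 : (fun x => L (φ (g x))) ⁻¹' N ∩ U ∈ 𝓝 x := inter_mem
        ((L.continuous.continuousAt.comp (hol x h1.2.1).continuousAt).preimage_mem_nhds hN)
        (hUo.mem_nhds h1.2)
      refine (hint x h1.2 h1.1 _ h2).mono (interior_mono ?_)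
      rintro _ ⟨y, ⟨hyD, hyN, hyU⟩, rfl⟩
      exact ⟨L (φ (g y)), ⟨mem_image_of_mem _ ((hKU y).2 ⟨hyD, hyU⟩).1, hyN⟩, rfl⟩) v₀
      (mem_ball_self hr)
  have hLφ : Tendsto (fun x => L (φ x)) (𝓝 z₀) (𝓝 v₀) :=
    (L.continuous.tendsto _).comp (φ.continuousAt hz₀).tendsto
  refine ⟨fun x => Q (L (φ x)), ?_, fun hcon => hQ0 ?_, ?_⟩
  · have h1 : ContDiffAt ℂ ω (fun v => Q (L v)) (φ z₀) :=
      ContDiffAt.comp (φ z₀) hQ.contDiffAt L.contDiff.contDiffAt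
    exact HolV.comp_contDiff (G := fun v => Q (L v)) h1 (HolV.chart hz₀)
  · have h1 : ∀ᶠ v in 𝓝 (φ z₀), Q (L v) = 0 := by
      refine ((φ.eventually_nhds' (fun x => Q (L (φ x)) = 0) hz₀).2 hcon).mp ?_
      filter_upwards [φ.open_target.mem_nhds (φ.map_source hz₀)] with v h2 h3
      rwa [φ.right_inv h2] at h3
    have h2 : Tendsto L.symm (𝓝 v₀) (𝓝 (φ z₀)) := by
      have := L.symm.continuous.tendsto v₀
      rwa [hv₀, L.symm_apply_apply] at this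
    filter_upwards [h2.eventually h1] with v h3
    rwa [L.apply_symm_apply] at h3
  · have h1 : ∀ᶠ x in 𝓝 z₀, pr q (L (φ x)) ∈ ball (pr q v₀) r := by
      have h2 : Tendsto (fun x => pr q (L (φ x))) (𝓝 z₀) (𝓝 (pr q v₀)) :=
        ((pr q).continuous.tendsto v₀).comp hLφ
      exact h2.eventually (ball_mem_nhds _ hr)
    have h2 : ∀ᶠ x in 𝓝 z₀, ‖lst q (L (φ x)) - lst q v₀‖ < 1 := by
      have h3 : Tendsto (fun x => ‖lst q (L (φ x)) - lst q v₀‖) (𝓝 z₀)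
          (𝓝 ‖lst q v₀ - lst q v₀‖) :=
        ((((lst q).continuous.tendsto v₀).comp hLφ).sub_const _).norm
      rw [sub_self, norm_zero] at h3
      exact h3.eventually_lt_const one_pos
    filter_upwards [hLφ.eventually hQz, h1, h2, φ.open_source.mem_nhds hz₀] with x h3 h4' h5 h6'
    rw [← h3]
    constructor
    · rintro ⟨w, hwD, rfl⟩
      exact mem_image_of_mem (fun x => L (φ (g x)))
        ((hKi w).2 ⟨hwD, h6', ball_subset_closedBall h4', h5.le⟩)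
    · rintro ⟨w, hwK, h8⟩
      have h9 : L (φ (g w)) = L (φ x) := h8
      refine ⟨w, hwK.1, ?_⟩
      exact φ.injOn ((hKi w).1 hwK).2.1 h6' (L.injective h9)

end Vale.Agent.P281.H349.TM
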