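import Vale.Agent.P281.H303.Gen.Push4
import Vale.Agent.P281.H234.Dir

/-!
# P281, project T-M, block T0, E8 (helper349): the direction and the box
-/

open Set Filter Metric Vale.Agent.P281 Vale.Agent.P281.H713 Vale.Agent.P281.H64
open scoped Topology ContDiff Manifold

noncomputable section

namespace Vale.Agent.P281.H349.TM

open Vale.Agent.P281.H511.Gen hiding pr
open Vale.Agent.P281.H64.Gen Vale.Agent.P281.H303.Gen
open Vale.Agent.P281.H150.Gen (pr lst AnIn NoSub SThin)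
open Vale.Agent.P281.H64.Thin (IsThinSet)

/-- The image of the tangent space of `{e = 0}` at `w`. -/
def tanIm {n q : ℕ} {X Z : Type} [TopologicalSpace X] [ChartedSpace (Cm n) X] [TopologicalSpace Z]
    [ChartedSpace (Cm (q + 1)) Z] (g : X → Z) (e : X → ℂ) (w : X) : Submodule ℂ (Cm (q + 1)) :=
  (LinearMap.ker (J.dif (Cm n) e w : Cm n →ₗ[ℂ] ℂ)).map
    (dM (Cm n) (Cm (q + 1)) g w : Cm n →ₗ[ℂ] Cm (q + 1))

theorem small_sub {q : ℕ} (S : Submodule ℂ (Cm (q + 1))) (h : Module.finrank ℂ S ≤ q) :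
    IsClosed (S : Set (Cm (q + 1))) ∧ interior (S : Set (Cm (q + 1))) = ∅ := by
  refine ⟨S.closed_of_finiteDimensional, ?_⟩
  by_contra hne
  have h1 : S = ⊤ := S.eq_top_of_nonempty_interior' (nonempty_iff_ne_empty.2 hne)
  rw [h1, finrank_top] at h
  simp at h

theorem exists_box {n q : ℕ} {X Z : Type} [TopologicalSpace X] [T2Space X] [CompactSpace X]
    [ChartedSpace (Cm n) X] [IsManifold 𝓘(ℂ, Cm n) ω X] [TopologicalSpace Z] [T2Space Z]
    [ChartedSpace (Cm (q + 1)) Z] [IsManifold 𝓘(ℂ, Cm (q + 1)) ω Z] {g : X → Z}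
    (hg : ContMDiff 𝓘(ℂ, Cm n) 𝓘(ℂ, Cm (q + 1)) ω g) {E : Set X} (hE : IsClosed E)
    {H : ℕ → Set Z} (hH : ∀ k, IsThinSet (Cm (q + 1)) (H k)) (hHu : g '' E ⊆ ⋃ k, H k)
    (hG : E ⊆ closure {w | w ∈ E ∧ ∃ e, IsLocalEq (Cm n) E e w ∧ J.dif (Cm n) e w ≠ 0 ∧
      Module.finrank ℂ (tanIm (n := n) (q := q) g e w) = q}) (z₀ : Z) :
    ∃ (L : Cm (q + 1) ≃L[ℂ] Cm (q + 1)) (r : ℝ), 0 < r ∧
      (∀ v, pr q v ∈ closedBall (pr q (L (chartAt (Cm (q + 1)) z₀ z₀))) r →
        ‖lst q v - lst q (L (chartAt (Cm (q + 1)) z₀ z₀))‖ ≤ 1 →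
        L.symm v ∈ (chartAt (Cm (q + 1)) z₀).target) ∧
      (∀ v, pr q v ∈ closedBall (pr q (L (chartAt (Cm (q + 1)) z₀ z₀))) r →
        ‖lst q v - lst q (L (chartAt (Cm (q + 1)) z₀ z₀))‖ = 1 →
        (chartAt (Cm (q + 1)) z₀).symm (L.symm v) ∉ g '' E) ∧
      ∀ w ∈ E, g w ∈ (chartAt (Cm (q + 1)) z₀).source → w ∈ closure {w | w ∈ E ∧
        g w ∈ (chartAt (Cm (q + 1)) z₀).source ∧ ∃ e, IsLocalEq (Cm n) E e w ∧
        J.dif (Cm n) e w ≠ 0 ∧ ∀ y : Cm q, ∃ ξ : Cm n, J.dif (Cm n) e w ξ = 0 ∧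
          dV (Cm n) (fun x => pr q (L (chartAt (Cm (q + 1)) z₀ (g x)))) w ξ = y} := by
  classical
  have hsc : SecondCountableTopology X :=
    ChartedSpace.secondCountable_of_sigmaCompact (Cm n) X
  set G : Set X := {w | w ∈ E ∧ ∃ e, IsLocalEq (Cm n) E e w ∧ J.dif (Cm n) e w ≠ 0 ∧
      Module.finrank ℂ (tanIm (n := n) (q := q) g e w) = q} with hGdef
  -- the chart
  set φ := chartAt (Cm (q + 1)) z₀ with hφ
  have hx₀ : z₀ ∈ φ.source := mem_chart_source _ z₀
  obtain ⟨R, hR, hRt⟩ := Metric.nhds_basis_closedBall.mem_iff.1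
    (φ.open_target.mem_nhds (φ.map_source hx₀))
  have huD : IsClosed (g '' E) := (hE.isCompact.image hg.continuous).isClosed
  set C : Set (Cm (q + 1)) := closedBall (φ z₀) R ∩ φ.symm ⁻¹' (g '' E) with hC
  have hcs : ContinuousOn φ.symm (closedBall (φ z₀) R) := φ.continuousOn_symm.mono hRt
  have hCc : IsClosed C := hcs.preimage_isClosed_of_isClosed isClosed_closedBall huD
  have hH' : ∀ k, IsThinSet (Cm (q + 1)) (closedBall (φ z₀) R ∩ φ.symm ⁻¹' (H k)) := by
    intro k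
    refine H150.Gen.thin_of_isClosed
      (hcs.preimage_isClosed_of_isClosed isClosed_closedBall (hH k).1) ?_
    rintro v ⟨hv, -⟩
    have hvt := hRt hv
    obtain ⟨h, hh, hh0, hhz⟩ := (hH k).2 (φ.symm v)
    refine ⟨h ∘ φ.symm, ?_, fun hcon => hh0 ?_, ?_⟩
    · have h1 := HolV.rep (φ.map_target hvt) (hh : HolV (Cm (q + 1)) h _)
      rw [← hφ, φ.right_inv hvt] at h1
      exact H150.Gen.holAt_of_analyticAt h1.analyticAt
    · refine (φ.eventually_nhds' (fun x => h x = 0) (φ.map_target hvt)).1 ?_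
      rw [φ.right_inv hvt]
      exact hcon
    · have h1 := (φ.continuousAt_symm hvt).eventually hhz
      filter_upwards [h1] with z h2 h3
      exact h2 h3.2
  have hCH : C ⊆ ⋃ k, closedBall (φ z₀) R ∩ φ.symm ⁻¹' (H k) := by
    rintro v ⟨hv, hvD⟩
    obtain ⟨k, hk⟩ := mem_iUnion.1 (hHu hvD)
    exact mem_iUnion.2 ⟨k, hv, hk⟩
  -- the dense sequence of good points
  obtain ⟨seq, hseq⟩ : ∃ seq : ℕ → Option G, E ⊆ closure {w | ∃ j, ∃ w' : G, seq j = some w' ∧
      (w' : X) = w} := by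
    rcases isEmpty_or_nonempty G with h0 | h0
    · refine ⟨fun _ => none, fun w hw => ?_⟩
      have h1 := hG hw
      rw [Set.isEmpty_coe_sort.1 h0, closure_empty] at h1
      exact absurd h1 (Set.notMem_empty w)
    · obtain ⟨s, hs⟩ := TopologicalSpace.exists_dense_seq G
      refine ⟨fun j => some (s j), hG.trans (closure_minimal ?_ isClosed_closure)⟩
      intro w hw
      have h1 : (⟨w, hw⟩ : G) ∈ closure (range s) := hs ⟨w, hw⟩
      have h2 := image_closure_subset_closure_image continuous_subtype_val (mem_image_of_mem _ h1)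
      rw [← range_comp] at h2
      refine closure_mono ?_ h2
      rintro _ ⟨j, rfl⟩
      exact ⟨j, s j, rfl, rfl⟩
  have hex : ∀ w : G, ∃ e, IsLocalEq (Cm n) E e w ∧ J.dif (Cm n) e w ≠ 0 ∧
      Module.finrank ℂ (tanIm (n := n) (q := q) g e (w : X)) = q := fun w => w.2.2
  choose e he hde hrk using hex
  have hol : ∀ w, g w ∈ φ.source → HolV (Cm n) (fun w => φ (g w)) w := fun w hw =>
    HolV.comp (E' := Cm (q + 1)) (h := (φ : Z → Cm (q + 1))) (HolV.chart hw) (hg w)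
  -- the direction
  set Sw : G → Submodule ℂ (Cm (q + 1)) := fun w =>
    (tanIm (n := n) (q := q) g (e w) (w : X)).map
      (dV (Cm (q + 1)) (φ : Z → Cm (q + 1)) (g w) : Cm (q + 1) →ₗ[ℂ] Cm (q + 1)) with hSw
  have hSle : ∀ w, Module.finrank ℂ (Sw w) ≤ q := fun w =>
    (Submodule.finrank_map_le _ _).trans (hrk w).le
  set N : ℕ → Set (Cm (q + 1)) := fun j => match seq j with
    | some w => (Sw w : Set (Cm (q + 1)))
    | none => ({0} : Set (Cm (q + 1))) with hN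
  have hNs : ∀ j, N j = (({0} : Set (Cm (q + 1)))) ∨ ∃ w, seq j = some w ∧ N j = Sw w := by
    intro j
    rcases hs : seq j with _ | w
    · left
      simp only [hN, hs]
    · right
      exact ⟨w, rfl, by simp only [hN, hs]⟩
  have hNc : ∀ j, IsClosed (N j) ∧ interior (N j) = ∅ := by
    intro j
    rcases hNs j with h1 | ⟨w, -, h1⟩
    · rw [h1]
      simp
    · rw [h1]
      exact small_sub (Sw w) (hSle w)
  obtain ⟨η, hηR, hηN, hηC⟩ := H234.dir (q + 1) C (φ z₀) R _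
    (fun j => j.casesOn ({0} : Set (Cm (q + 1))) fun j => N j) hR hCc
    hH' hCH (fun j => by
      rcases j with _ | j
      · simp
      · exact hNc j)
  have hη0 : η ≠ 0 := by
    rintro rfl
    exact hηN 0 rfl
  obtain ⟨L, hL⟩ := SeparatingDual.exists_continuousLinearEquiv_apply_eq (R := ℂ) (V := Cm (q + 1))
    (x := η) (y := pnt (0 : Cm q) 1) hη0 (by
      intro h0
      have := congrArg (lst q) h0
      rw [lst_pnt, map_zero] at this
      exact one_ne_zero this)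
  set v₀ : Cm (q + 1) := L (φ z₀) with hv₀
  set Ψ : Cm q × ℂ → Cm (q + 1) := fun x => L.symm (pnt x.1 (lst q v₀ + x.2)) with hΨ
  have hΨc : Continuous Ψ := L.symm.continuous.comp (continuous_pnt.comp
    (continuous_fst.prodMk (continuous_const.add continuous_snd)))
  have hΨ0 : ∀ s : ℂ, Ψ (pr q v₀, s) = φ z₀ + s • η := by
    intro s
    rw [hΨ]
    show L.symm (pnt (pr q v₀) (lst q v₀ + s)) = φ z₀ + s • η
    rw [L.symm_apply_eq, map_add, map_smul, hL, ← hv₀]
    funext i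
    refine Fin.lastCases ?_ (fun j => ?_) i
    · simp
    · simp [pnt]
  have hΨL : ∀ v, Ψ (pr q v, lst q v - lst q v₀) = L.symm v := by
    intro v
    show L.symm (pnt (pr q v) (lst q v₀ + (lst q v - lst q v₀))) = L.symm v
    rw [add_sub_cancel, pnt_pr_lst]
  -- the tube
  set O : Set (Cm q × ℂ) := {x | Ψ x ∈ ball (φ z₀) R ∧ (‖x.2‖ = 1 → Ψ x ∉ C)} with hO
  have hOo : IsOpen O := by
    have h1 : O = Ψ ⁻¹' ball (φ z₀) R ∩ ({x | ‖x.2‖ ≠ 1} ∪ Ψ ⁻¹' Cᶜ) := by
      ext x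
      constructor
      · rintro ⟨h1, h2⟩
        refine ⟨h1, ?_⟩
        by_cases h3 : ‖x.2‖ = 1
        · exact Or.inr (h2 h3)
        · exact Or.inl h3
      · rintro ⟨h1, h2⟩
        refine ⟨h1, fun h3 => ?_⟩
        rcases h2 with h2 | h2
        · exact absurd h3 h2
        · exact h2
    rw [h1]
    refine (isOpen_ball.preimage hΨc).inter (IsOpen.union ?_ (hCc.isOpen_compl.preimage hΨc))
    exact isOpen_ne_fun (continuous_snd.norm) continuous_const
  obtain ⟨U, U', hU, hU', hvU, hdU', hUU'⟩ := generalized_tube_lemma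
    (isCompact_singleton (x := pr q v₀)) (isCompact_closedBall (0 : ℂ) 1) hOo (by
      rintro ⟨b, s⟩ ⟨hb, hs⟩
      rw [mem_singleton_iff] at hb
      simp only at hb hs
      subst hb
      rw [mem_closedBall_zero_iff] at hs
      refine ⟨?_, fun h1 => ?_⟩
      · rw [hΨ0, mem_ball, dist_eq_norm, add_sub_cancel_left, norm_smul]
        calc ‖s‖ * ‖η‖ ≤ 1 * ‖η‖ := by gcongr
          _ < R := by rw [one_mul]; exact hηR
      · rw [hΨ0]
        exact hηC s h1)
  obtain ⟨r, hr, hrU⟩ := Metric.nhds_basis_closedBall.mem_iff.1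
    (hU.mem_nhds (hvU (mem_singleton _)))
  have hbox : ∀ b ∈ closedBall (pr q v₀) r, ∀ s ∈ closedBall (0 : ℂ) 1, (b, s) ∈ O :=
    fun b hb s hs => hUU' (mk_mem_prod (hrU hb) (hdU' hs))
  refine ⟨L, r, hr, fun v h1 h2 => ?_, fun v h1 h2 h3 => ?_, fun w hw hws => ?_⟩
  · have h3 := (hbox _ h1 (lst q v - lst q v₀) (by simpa using h2)).1
    rw [hΨL] at h3
    exact hRt (ball_subset_closedBall h3)
  · have h4 := hbox _ h1 (lst q v - lst q v₀) (by simpa using h2.le)
    have h5 := h4.2 h2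
    have h6 := h4.1
    rw [hΨL] at h5 h6
    exact h5 ⟨ball_subset_closedBall h6, h3⟩
  · have h1 := hseq hw
    rw [mem_closure_iff_frequently] at h1 ⊢
    refine (h1.and_eventually (hg.continuous.continuousAt.eventually
      (φ.open_source.mem_nhds hws))).mono ?_
    rintro x ⟨⟨j, w', hj, rfl⟩, hxs⟩
    refine ⟨w'.2.1, hxs, e w', he w', hde w', fun y => ?_⟩
    have hηw : η ∉ (Sw w' : Set (Cm (q + 1))) := by
      have h2 := hηN (j + 1)
      simp only [hN, hj] at h2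
      exact h2
    have hinj := (H399.Gen.dV_inj (p := q) hxs).1
    have hfr : Module.finrank ℂ (Sw w') = q :=
      (LinearEquiv.finrank_eq (Submodule.equivMapOfInjective _ hinj _)).symm.trans (hrk w')
    have htop : Sw w' ⊔ Submodule.span ℂ {η} = ⊤ := by
      refine Submodule.eq_top_of_finrank_eq ?_
      have h3 : Sw w' < Sw w' ⊔ Submodule.span ℂ {η} := by
        refine lt_of_le_of_ne le_sup_left fun h4 => hηw ?_
        rw [SetLike.mem_coe, h4]
        exact Submodule.mem_sup_right (Submodule.mem_span_singleton_self η)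
      have h4 := Submodule.finrank_lt_finrank_of_lt h3
      have h5 := Submodule.finrank_le (Sw w' ⊔ Submodule.span ℂ {η})
      rw [hfr] at h4
      simp at h5 ⊢
      omega
    have hmem : L.symm (pnt y 0) ∈ Sw w' ⊔ Submodule.span ℂ {η} := by
      rw [htop]
      exact Submodule.mem_top
    obtain ⟨s, hs, s', hs', hss⟩ := Submodule.mem_sup.1 hmem
    obtain ⟨c, rfl⟩ := Submodule.mem_span_singleton.1 hs'
    obtain ⟨_, ⟨ξ, hξ, rfl⟩, hξs⟩ := hs
    refine ⟨ξ, hξ, ?_⟩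
    have e1 : dV (Cm n) (fun x => pr q (L (φ (g x)))) (w' : X) ξ =
        pr q (L (dV (Cm n) (fun x => φ (g x)) (w' : X) ξ)) := by
      have h4 : HasMFDerivAt 𝓘(ℂ, Cm n) 𝓘(ℂ, Cm (q + 1)) (fun x => φ (g x)) (w' : X)
          (dV (Cm n) (fun x => φ (g x)) (w' : X)) := (hol _ hxs).mdiff.hasMFDerivAt
      have h5 : HasMFDerivAt 𝓘(ℂ, Cm (q + 1)) 𝓘(ℂ, Cm q)
          ((pr q).comp (L : Cm (q + 1) →L[ℂ] Cm (q + 1))) (φ (g w'))
          ((pr q).comp (L : Cm (q + 1) →L[ℂ] Cm (q + 1))) :=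
        ((pr q).comp (L : Cm (q + 1) →L[ℂ] Cm (q + 1))).hasMFDerivAt
      have h6 := HasMFDerivAt.comp (w' : X) h5 h4
      have h7 : dV (Cm n) (fun x => pr q (L (φ (g x)))) (w' : X) =
          ((pr q).comp (L : Cm (q + 1) →L[ℂ] Cm (q + 1))).comp
          (dV (Cm n) (fun x => φ (g x)) (w' : X)) := h6.mfderiv
      rw [h7]
      rfl
    have h7 : dV (Cm n) (fun x => φ (g x)) (w' : X) =
        (dV (Cm (q + 1)) (φ : Z → Cm (q + 1)) (g w')).comp
          (dM (Cm n) (Cm (q + 1)) g (w' : X)) :=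
      dV_comp (E' := Cm (q + 1)) (h := (φ : Z → Cm (q + 1))) (HolV.chart hxs) (hg _)
    have h8 : dV (Cm n) (fun x => φ (g x)) (w' : X) ξ = L.symm (pnt y 0) - c • η := by
      rw [h7, ← hss, add_sub_cancel_right]
      exact hξs
    rw [e1, h8, map_sub, map_sub, L.apply_symm_apply, map_smul, hL, map_smul, pr_pnt, pr_pnt,
      smul_zero, sub_zero]

end Vale.Agent.P281.H349.TM
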