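import Vale.Agent.P281.H740.TM.Spec
import Vale.Agent.P281.H740.TL.FibL
import Vale.Agent.P281.H511.TD
import Vale.Agent.P281.H713.MainC
import Vale.Agent.P281.H713.FibH
import Vale.Agent.P281.H364.Gen.Crit
import Vale.Agent.P281.H383.Gen.Ext
import Vale.Agent.P281.H150.Gen.Img

/-!
# P281, project T-M, block T1 (helper349): the elliptic storey
-/

open scoped Manifold ContDiff Topology
open Set Filter Metric Module

noncomputable section

namespace Vale.Agent.P281.H349.TM

open Vale.Agent.P281 Vale.Agent.P281.MF Vale.Agent.P281.ISO Vale.Agent.P281.ELL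
open Vale.Agent.P281.H713 Vale.Agent.P281.H713.TZ.S
open Vale.Agent.P281.H64.Thin (IsThinSet)
open Vale.Agent.P281.H64.Gen (IsSmallSet)
open Vale.Agent.P281.H64.StatV (IsTorus)

set_option linter.unusedSectionVars false

section Const

variable {E₀ : Type} [NormedAddCommGroup E₀] [NormedSpace ℂ E₀] [FiniteDimensional ℂ E₀]
variable {F : Type} [TopologicalSpace F] [ChartedSpace E₀ F] [IsManifold 𝓘(ℂ, E₀) ω F]

/-- a function without differential is locally constant -/
theorem loc_const {V : Type} [NormedAddCommGroup V] [NormedSpace ℂ V] {g : F → V} {p : F}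
    (hg : HolV E₀ g p) (h0 : ∀ᶠ q in 𝓝 p, dV E₀ g q = 0) : ∀ᶠ q in 𝓝 p, g q = g p := by
  set φ := chartAt E₀ p with hφ
  have hps : p ∈ φ.source := mem_chart_source E₀ p
  have h1 : ∀ᶠ w in 𝓝 (φ p), φ.symm w ∈ {q | dV E₀ g q = 0 ∧ HolV E₀ g q} ∧ w ∈ φ.target := by
    have h2 : Tendsto φ.symm (𝓝 (φ p)) (𝓝 p) := by
      have h3 := φ.continuousAt_symm (φ.map_source hps)
      rwa [ContinuousAt, φ.left_inv hps] at h3
    exact (h2.eventually (h0.and hg.eventually)).and
      (φ.open_target.mem_nhds (φ.map_source hps))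
  obtain ⟨ε, hε, hb⟩ := Metric.eventually_nhds_iff_ball.1 h1
  have hd : ∀ w ∈ ball (φ p) ε, HasFDerivAt (g ∘ φ.symm) (0 : E₀ →L[ℂ] V) w := by
    intro w hw
    obtain ⟨⟨h2, h3⟩, h4⟩ := hb w hw
    have h5 : φ.symm w ∈ (chartAt E₀ p).source := φ.map_target h4
    have h6 := h3.rep h5
    have h7 : (chartAt E₀ p) (φ.symm w) = w := φ.right_inv h4
    rw [h7] at h6
    have h8 : DifferentiableAt ℂ (g ∘ φ.symm) w := h6.differentiableAt (by simp)
    have h9 : MDifferentiableAt 𝓘(ℂ, E₀) 𝓘(ℂ, E₀) φ.symm w :=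
      ((contMDiffOn_chart_symm (I := 𝓘(ℂ, E₀)) (n := ω) (x := p)).contMDiffAt
        (φ.open_target.mem_nhds h4)).mdifferentiableAt (by simp)
    have h10 := mfderiv_comp w (g := g) (f := φ.symm) (h3.mdiff) h9
    have h11 : mfderiv 𝓘(ℂ, E₀) 𝓘(ℂ, V) (g ∘ φ.symm) w = 0 := by
      rw [h10]
      have h12 : mfderiv 𝓘(ℂ, E₀) 𝓘(ℂ, V) g (φ.symm w) = 0 := h2
      rw [h12]
      rfl
    rw [mfderiv_eq_fderiv] at h11
    have h12 := h8.hasFDerivAt
    rwa [h11] at h12
  have hc : ∀ w ∈ ball (φ p) ε, (g ∘ φ.symm) w = (g ∘ φ.symm) (φ p) := by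
    intro w hw
    refine isOpen_ball.is_const_of_fderiv_eq_zero (𝕜 := ℂ) (f := g ∘ φ.symm)
      (convex_ball (φ p) ε).isPreconnected (fun z hz => (hd z hz).differentiableAt.differentiableWithinAt)
      (fun z hz => (hd z hz).fderiv) hw (mem_ball_self hε)
  filter_upwards [(φ.continuousAt hps).eventually (ball_mem_nhds (φ p) hε),
    φ.open_source.mem_nhds hps] with q h2 h3
  have h4 := hc _ h2
  simp only [Function.comp_apply] at h4
  rwa [φ.left_inv h3, φ.left_inv hps] at h4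

end Const

section Torus

variable {G : Type} [TopologicalSpace G] [ChartedSpace (Cm 1) G] [IsManifold 𝓘(ℂ, Cm 1) ω G]

/-- the tangent vector `1` -/
abbrev e₁ : Cm 1 := fun _ => 1

theorem ext_e₁ {V : Type} [NormedAddCommGroup V] [NormedSpace ℂ V] {A : Cm 1 →L[ℂ] V}
    (h : A e₁ = 0) : A = 0 := by
  ext v
  have h1 : v = v 0 • e₁ := by
    funext j
    rw [Subsingleton.elim j 0]
    simp [e₁]
  rw [h1, map_smul, h, smul_zero]
  rfl

/-- a holomorphic 1-form without zeros -/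
theorem torus_form (hT : IsTorus 1 G) : ∃ η : G → ℂ, (∀ t, η t ≠ 0) ∧ ∀ t, ∃ h : G → ℂ,
    HolV (Cm 1) h t ∧ ∀ᶠ q in 𝓝 t, η q = h q * jac (Cm 1) (chartAt (Cm 1) t) q := by
  obtain ⟨η, h1, h2⟩ := hT
  refine ⟨fun t => η 0 t e₁, fun t h0 => ?_, fun t => ?_⟩
  · have h3 := h2 t e₁ fun a => by rw [Subsingleton.elim a 0]; exact h0
    exact absurd (congrFun h3 0) one_ne_zero
  · obtain ⟨ψ, h3, h4⟩ := h1 0 t
    obtain ⟨h, h5, h6⟩ := cur_dif (by simp) e₁ (p := t) (g := ψ) h3
    refine ⟨h, h5, ?_⟩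
    filter_upwards [h4, h6] with q h7 h8
    rw [h7]
    exact h8

/-- a torus of dimension one has Kodaira dimension `≥ 0` -/
theorem kod_torus [Nonempty G] (hT : IsTorus 1 G) {ι : Type} (eqn : ι → G → (G → ℂ) → Prop) :
    KodGE (Cm 1) eqn (fun _ : ι => (0 : ℝ)) 0 := by
  obtain ⟨η, h1, h2⟩ := torus_form hT
  obtain ⟨t₀⟩ := ‹Nonempty G›
  refine ⟨1, fun _ => 0, fun _ => η, t₀, one_pos, by simp, fun b z₀ => ?_,
    fun i hi => absurd rfl hi, h1 t₀, linearIndependent_empty_type⟩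
  obtain ⟨h, h3, h4⟩ := h2 z₀
  refine ⟨∅, fun _ _ => 1, h, fun i hi => absurd rfl hi, fun i hi => absurd hi (by simp), h3, ?_⟩
  filter_upwards [h4] with z h5 _
  rw [Finset.prod_empty, mul_one, h5, pow_one]

end Torus

section Curve

variable {p : ℕ} {X Z G : Type} [TopologicalSpace X] [T2Space X] [ChartedSpace (Cm (p + 1)) X]
  [IsManifold 𝓘(ℂ, Cm (p + 1)) ω X] [TopologicalSpace Z] [T2Space Z] [ChartedSpace (Cm p) Z]
  [IsManifold 𝓘(ℂ, Cm p) ω Z] [TopologicalSpace G] [T2Space G] [ChartedSpace (Cm 1) G]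
  [IsManifold 𝓘(ℂ, Cm 1) ω G]

/-- no map of a torus of dimension one to a torus is nondegenerate -/
theorem no_curve [CompactSpace G] [ConnectedSpace G] {f : X → Z} {S : Set Z} {g n : ℕ}
    (hg : 2 ≤ g)
    {Q : (Fin n → ℝ) → (Fin n → ℝ) → ℝ} {ι : Type} {U : ι → Set Z}
    {π : ι → Z → ((Fin n → ℝ) ≃L[ℝ] EuclideanSpace ℂ (Fin g))}
    {α : ι → X → EuclideanSpace ℂ (Fin g)}
    (hC : IsCurveFamily (Cm (p + 1)) (Cm p) f S Q U π α)
    (hf : ContMDiff 𝓘(ℂ, Cm (p + 1)) 𝓘(ℂ, Cm p) ω f)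
    (hP : H64.IsProperFibration (n := p + 1) (p := p) f S) {y : Z} (hy : y ∉ S) {i : G → X}
    (hi : H511.Surf.IsFibre (Cm (p + 1)) (Cm 1) f y i) (hT : IsTorus 1 G) : False := by
  classical
  obtain ⟨a, ha⟩ := (hC.cover y).1 hy
  obtain ⟨η, hη0, hη⟩ := torus_form hT
  have hih : ∀ t, HolM (Cm 1) (Cm (p + 1)) i t := fun t => hi.hol t
  have hfi := hi.fibre
  have hE₀ : finrank ℂ (Cm 1) = 1 := by simp
  have hlift : ∀ t, ∃ β : X → EuclideanSpace ℂ (Fin g), HolV (Cm (p + 1)) β (i t) ∧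
      ∀ᶠ z in 𝓝 (i t), IsCongr (π a (f z)) (α a z) (β z) := fun t =>
    hC.lift a (i t) (by rw [hfi]; exact ha)
  choose β hβ hβe using hlift
  have hβi : ∀ t, HolV (Cm 1) (fun w => β t (i w)) t := fun t =>
    HolV.comp (h := β t) (hβ t) (hih t)
  have hloc : ∀ t, ∀ᶠ q in 𝓝 t, dV (Cm 1) (fun w => β q (i w)) q =
      dV (Cm 1) (fun w => β t (i w)) q := by
    intro t
    obtain ⟨ε, hε, hdis⟩ := lam_discrete (π a y)
    filter_upwards [(hβi t).eventually,
      (hih t).continuousAt.eventually (eventually_eventually_nhds.2 (hβe t))] with q h1 h2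
    have h3 : ∀ᶠ w in 𝓝 q, β q (i w) - β t (i w) ∈ Lam (π a y) := by
      filter_upwards [(hih q).continuousAt.eventually (hβe q),
        (hih q).continuousAt.eventually h2] with w h4 h5
      obtain ⟨m, hm⟩ := h4
      obtain ⟨m', hm'⟩ := h5
      rw [hfi] at hm hm'
      refine ⟨m - m', ?_⟩
      rw [hm, hm']
      have h6 : (fun j => (((m - m') j : ℤ) : ℝ)) = (fun j => (m j : ℝ)) - fun j => (m' j : ℝ) := by
        funext j
        simp
      rw [h6, map_sub]
      abel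
    have hcont : ContinuousAt (fun w => β q (i w) - β t (i w) - (β q (i q) - β t (i q))) q :=
      ((hβi q).continuousAt.sub h1.continuousAt).sub continuousAt_const
    have hsm := hcont.norm.eventually_lt_const (u := ε) (by
      show ‖β q (i q) - β t (i q) - (β q (i q) - β t (i q))‖ < ε
      rw [sub_self, norm_zero]
      exact hε)
    have h6 : (fun w => β q (i w)) =ᶠ[𝓝 q] fun w => β t (i w) + (β q (i q) - β t (i q)) := by
      filter_upwards [h3, hsm] with w h7 h8
      have h9 := hdis _ h7 _ h3.self_of_nhds h8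
      rw [← h9]
      abel
    have h7 : dV (Cm 1) (fun w => β q (i w)) q =
        dV (Cm 1) (fun w => β t (i w) + (β q (i q) - β t (i q))) q := h6.mfderiv_eq
    rw [h7]
    exact dV_comp_contDiff (G := fun v => v + (β q (i q) - β t (i q)))
      (contDiff_id.add contDiff_const).contDiffAt h1 |>.trans (by
        rw [fderiv_add_const, fderiv_fun_id]
        rfl)
  -- the quotient of `l (dβ)` by `η` is constant
  have hconst : ∀ l : EuclideanSpace ℂ (Fin g) →L[ℂ] ℂ, ∃ c, ∀ t,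
      l (dV (Cm 1) (fun w => β t (i w)) t e₁) / η t = c := by
    intro l
    obtain ⟨c, hc⟩ := const_of_local
      (T := fun t => l (dV (Cm 1) (fun w => β t (i w)) t e₁) / η t) (bad := ∅) (fun t => by
      obtain ⟨h, hh, hhe⟩ := hη t
      have hl : HolV (Cm 1) (fun w => l (β t (i w))) t :=
        HolV.comp_contDiff (G := l) l.contDiff.contDiffAt (hβi t)
      obtain ⟨k, hk, hke⟩ := cur_dif hE₀ e₁ hl
      have hjac : jac (Cm 1) (chartAt (Cm 1) t) t ≠ 0 := by
        intro h0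
        have h1 := hhe.self_of_nhds
        rw [h0, mul_zero] at h1
        exact hη0 t h1
      have hh0 : h t ≠ 0 := by
        intro h0
        have h1 := hhe.self_of_nhds
        rw [h0, zero_mul] at h1
        exact hη0 t h1
      refine ⟨fun q => k q / h q, hk.div hh hh0, ?_⟩
      filter_upwards [hhe, hke, hloc t, (hβi t).eventually] with q h1 h2 h3 h5 _
      have h4 : jac (Cm 1) (chartAt (Cm 1) t) q ≠ 0 := by
        intro h0
        rw [h0, mul_zero] at h1
        exact hη0 q h1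
      have h6 : dif (Cm 1) (fun w => l (β t (i w))) q e₁ =
          l (dV (Cm 1) (fun w => β t (i w)) q e₁) := by
        have h7 := dV_comp_contDiff (G := l) (v := fun w => β t (i w)) l.contDiff.contDiffAt h5
        rw [l.fderiv] at h7
        exact congrArg (fun A : Cm 1 →L[ℂ] ℂ => A e₁) h7
      show l (dV (Cm 1) (fun w => β q (i w)) q e₁) / η q = k q / h q
      rw [h3, ← h6, h2, h1, mul_div_mul_right _ _ h4])
      (fun p => Eventually.of_forall fun q _ => Set.notMem_empty q)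
    exact ⟨c, fun q => hc q (Set.notMem_empty q)⟩
  obtain ⟨t₀⟩ : Nonempty G := inferInstance
  set w₀ := dV (Cm 1) (fun w => β t₀ (i w)) t₀ e₁ with hw₀
  obtain ⟨l, hl0, hlw⟩ : ∃ l : EuclideanSpace ℂ (Fin g) →L[ℂ] ℂ, l ≠ 0 ∧ l w₀ = 0 := by
    have h1 : Submodule.span ℂ {w₀} < ⊤ := by
      refine lt_top_iff_ne_top.2 fun h2 => ?_
      have h3 := finrank_span_le_card (R := ℂ) ({w₀} : Set (EuclideanSpace ℂ (Fin g)))
      rw [h2, finrank_top, finrank_euclideanSpace_fin] at h3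
      simp at h3
      omega
    obtain ⟨l, h2, h3⟩ := Submodule.exists_le_ker_of_lt_top _ h1
    refine ⟨LinearMap.toContinuousLinearMap l, fun h4 => h2 ?_, ?_⟩
    · ext v
      exact congrArg (fun A : EuclideanSpace ℂ (Fin g) →L[ℂ] ℂ => A v) h4
    · exact h3 (Submodule.mem_span_singleton_self w₀)
  have hzero : ∀ t, l (dV (Cm 1) (fun w => β t (i w)) t e₁) = 0 := by
    obtain ⟨c, hc⟩ := hconst l
    have hc0 : c = 0 := by
      rw [← hc t₀, ← hw₀, hlw, zero_div]
    intro t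
    have h1 := hc t
    rw [hc0, div_eq_zero_iff] at h1
    exact h1.resolve_right (hη0 t)
  obtain ⟨x, hx, hnd⟩ := hC.nondeg a y ha
  have hn : Module.finrank ℂ (Cm (p + 1)) = Module.finrank ℂ (Cm p) + Module.finrank ℂ (Cm 1) := by
    simp
  have hsub : ∀ x, f x = y → Function.Surjective (mfderiv 𝓘(ℂ, Cm (p + 1)) 𝓘(ℂ, Cm p) f x) :=
    fun x hx => hP.submersive x (by rw [hx]; exact hy)
  obtain ⟨t₁, rfl⟩ := H740.surj_fib hn hf hi.hol hsub hi.immersion hi.fibre
    (hP.connected y hy).isPreconnected hx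
  refine hl0 (hnd (β t₁) (hβ t₁) (hβe t₁) l ?_)
  have h1 : ∀ᶠ q in 𝓝 t₁, dV (Cm 1) (fun w => l (β t₁ (i w))) q = 0 := by
    filter_upwards [hloc t₁, (hβi t₁).eventually] with q h2 h3
    refine ext_e₁ ?_
    have h7 := dV_comp_contDiff (G := l) (v := fun w => β t₁ (i w)) l.contDiff.contDiffAt h3
    rw [l.fderiv] at h7
    rw [h7, ContinuousLinearMap.comp_apply, ← h2]
    exact hzero q
  have h2 := loc_const (g := fun w => l (β t₁ (i w)))
    (HolV.comp_contDiff (G := l) l.contDiff.contDiffAt (hβi t₁)) h1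
  obtain ⟨ρ, hρ, hρt, hρf⟩ := H740.exists_retr hn hf hi.hol (hsub _ (hfi t₁)) (hi.immersion t₁) hfi
  have h3 : Tendsto ρ (𝓝 (i t₁)) (𝓝 t₁) := by
    have := hρ.continuousAt
    rwa [ContinuousAt, hρt] at this
  filter_upwards [h3.eventually h2, hρf] with z h4 h5 h6
  rw [h5 h6] at h4
  exact h4

end Curve

/-- **T1** -/
theorem ell : H740.TM.EllStmt := by
  classical
  intro p X Z _ _ _ _ g Δ h hE
  have : T2Space X := h.hausdorff.1
  have : T2Space Z := h.hausdorff.2
  have : CompactSpace X := h.compact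
  have : ConnectedSpace X := h.connected
  have : IsManifold 𝓘(ℂ, Cm (p + 1)) ω X := h.manifold.1
  have : IsManifold 𝓘(ℂ, Cm p) ω Z := h.manifold.2
  have hsurj : Function.Surjective g := fun y => (h.fibres y).nonempty
  have : PreconnectedSpace Z := by
    rw [preconnectedSpace_iff_univ, ← hsurj.range_eq]
    exact isPreconnected_range h.hol.continuous
  obtain ⟨S, hS, hP⟩ := H364.crit H150.Gen.img (p + 1) p X Z g h.hol h.fibres
  have hP₁ := hP S subset_rfl hS.1
  have hco := (H383.Gen.compl p Z S hS).2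
  refine ⟨S, hS, hP₁, ?_⟩
  obtain ⟨H, hH, hSH⟩ := hS.2
  obtain ⟨z, hz, G, _, _, _, i, hi, hT⟩ := hE H hH
  have hzS : z ∉ S := by
    intro h1
    obtain ⟨k, hk⟩ := mem_iUnion.1 (hSH h1)
    exact hz k hk
  have : CompactSpace G := hi.compact
  have : ConnectedSpace G := hi.connected
  have : IsManifold 𝓘(ℂ, Cm 1) ω G := hi.manifold
  have hhor : horizontal g S (fun _ : Set X => (0 : ℝ)) = ∅ := by
    ext D
    simp [horizontal]
  have hfam : IsFamilyOfCurves (Cm (p + 1)) (Cm p) g S (fun _ => 0) := by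
    refine H511.td p X Z g S (fun _ => 0) h.hol hP₁ hco (by simp)
      (fun D hD => absurd rfl hD) ⟨fun D hD => ?_, fun D hD => ?_⟩
    · rw [hhor] at hD
      exact absurd hD (Set.notMem_empty D)
    · rw [hhor] at hD
      exact absurd hD (Set.notMem_empty D)
  rcases hfam with hC | hC | hC
  · obtain ⟨m, n, Q, ι, U, π, α, hm, hC⟩ := hC
    exact (no_curve hm hC h.hol hP₁ hzS hi hT).elim
  · obtain ⟨m, d, Q, ι, U, π, u, P, hC⟩ := hC
    exact ⟨m, Q, ι, U, π, u, hC.toIsTorusFamily⟩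
  · exfalso
    obtain ⟨d, δ, ι, U, P, c, hC⟩ := hC
    have h0 : ∀ l : Fin d, δ l = 0 := by
      intro l
      obtain ⟨D, hD, hDl⟩ := weight_eq hC hzS l
      rw [← hDl]
    have h1 := kodF_line (j := 0) (by simp) (fun x => h.hol x) hC (fun q => hi.hol q) hzS hi.fibre
      hi.immersion (fun D hD => absurd rfl hD) (by simp [h0]) (kod_torus hT _)
    have h2 := h1.1
    simp [h0] at h2

end Vale.Agent.P281.H349.TM
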